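import Mathlib.Algebra.Order.Chebyshev
import Mathlib.Algebra.Ring.IsFormallyReal
import Mathlib.Analysis.CStarAlgebra.Module.Constructions
import Mathlib.Analysis.InnerProductSpace.Spectrum
import Mathlib.Analysis.InnerProductSpace.l2Space
import Mathlib.Analysis.Matrix.Hermitian
import Mathlib.Analysis.PSeries
import Mathlib.Analysis.Real.Pi.Bounds
import Mathlib.Analysis.SpecialFunctions.Log.ENNRealLog
import Mathlib.LinearAlgebra.Matrix.Integer
import Mathlib.MeasureTheory.Measure.Prokhorov
import Mathlib.MeasureTheory.Order.Group.Lattice
import Mathlib.Probability.Distributions.Cauchy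
import Mathlib.Probability.Independence.Basic
import Mathlib.RingTheory.PicardGroup
import Mathlib.RingTheory.SimpleRing.Principal
import Mathlib.Tactic
import Mathlib.Topology.UniformSpace.Uniformizable

/-! The part of Mathlib that the development of this folder uses. -/
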